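import Vale.Agent.P347.Quarter.Gauss.Density

/-!
# P347: Gaussian integration by parts, by differentiating the translation identity
-/

open MeasureTheory ProbabilityTheory Real Filter
open scoped RealInnerProductSpace Topology

namespace Vale.Agent.P347.Quarter

variable {ι : Type} [Fintype ι]

/-- Any exponential of the norm is integrable. -/
lemma integrable_exp_norm_gam (K : ℝ) : Integrable (fun x : Eu ι => exp (K * ‖x‖)) (gam ι) := by
  have hc : Continuous fun x : Eu ι => exp (1 / 4 * ‖x‖ ^ 2) := by fun_prop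
  have hi : Integrable (fun x : Eu ι => exp (1 / 4 * ‖x‖ ^ 2)) (gam ι) := by
    refine ⟨hc.aestronglyMeasurable, ?_⟩
    rw [hasFiniteIntegral_iff_ofReal (ae_of_all _ fun x => (exp_pos _).le)]
    exact (lintegral_exp_sq_le (E := Eu ι) (c := 1 / 4) (by norm_num) le_rfl).trans_lt
      ENNReal.ofReal_lt_top
  refine Integrable.mono' (hi.const_mul (exp (K ^ 2)))
    (by fun_prop : Continuous fun x : Eu ι => exp (K * ‖x‖)).aestronglyMeasurable
    (ae_of_all _ fun x => ?_)
  rw [norm_eq_abs, abs_exp, ← exp_add]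
  refine exp_le_exp.2 ?_
  nlinarith [sq_nonneg (K - ‖x‖ / 2)]

/-- A continuous function of exponential growth is integrable. -/
lemma integrable_gam_of_le {F : Type*} [NormedAddCommGroup F] [NormedSpace ℝ F]
    [SecondCountableTopology F]
    {f : Eu ι → F} (hf : Continuous f) {C K : ℝ} (hb : ∀ x, ‖f x‖ ≤ C * exp (K * ‖x‖)) :
    Integrable f (gam ι) :=
  ((integrable_exp_norm_gam K).const_mul C).mono' hf.aestronglyMeasurable (ae_of_all _ hb)

/-- Integration by parts. -/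
theorem gam_ibp {F : Eu ι → ℝ} (hF : ContDiff ℝ 1 F) {C K : ℝ}
    (h0 : ∀ x, |F x| ≤ C * exp (K * ‖x‖)) (h1 : ∀ x, ‖fderiv ℝ F x‖ ≤ C * exp (K * ‖x‖))
    (v : Eu ι) :
    ∫ x, fderiv ℝ F x v ∂gam ι = ∫ x, F x * ⟪x, v⟫ ∂gam ι := by
  have hC : 0 ≤ C := by
    have := (abs_nonneg _).trans (h0 0)
    exact nonneg_of_mul_nonneg_left this (exp_pos _)
  have hFc := hF.continuous
  have hDc : Continuous (fderiv ℝ F) := hF.continuous_fderiv one_ne_zero
  -- differentiate `∫ F (x + t v)`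
  have hL : HasDerivAt (fun t : ℝ => ∫ x, F (x + t • v) ∂gam ι) (∫ x, fderiv ℝ F x v ∂gam ι) 0 := by
    have h := (hasDerivAt_integral_of_dominated_loc_of_deriv_le (μ := gam ι)
      (F := fun t x => F (x + t • v)) (F' := fun t x => fderiv ℝ F (x + t • v) v)
      (x₀ := (0:ℝ)) (s := Metric.ball 0 1)
      (bound := fun x => C * exp (|K| * ‖v‖) * ‖v‖ * exp (|K| * ‖x‖)) (Metric.ball_mem_nhds _ one_pos)
      (Eventually.of_forall fun t => (hFc.comp (by fun_prop)).aestronglyMeasurable)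
      (by simpa using integrable_gam_of_le hFc (C := C) (K := K) (fun x => by simpa using h0 x))
      ((hDc.comp (by fun_prop)).clm_apply continuous_const).aestronglyMeasurable
      (ae_of_all _ fun x t ht => ?_)
      ((integrable_exp_norm_gam |K|).const_mul _)
      (ae_of_all _ fun x t _ => ?_)).2
    · simpa using h
    · rw [Metric.mem_ball, dist_zero_right, norm_eq_abs] at ht
      refine ((fderiv ℝ F _).le_opNorm v).trans ((mul_le_mul_of_nonneg_right (h1 _)
        (norm_nonneg v)).trans ?_)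
      have hn : ‖x + t • v‖ ≤ ‖x‖ + ‖v‖ := by
        refine (norm_add_le _ _).trans (add_le_add le_rfl ?_)
        rw [norm_smul, norm_eq_abs]
        exact mul_le_of_le_one_left (norm_nonneg _) ht.le
      have : exp (K * ‖x + t • v‖) ≤ exp (|K| * ‖v‖) * exp (|K| * ‖x‖) := by
        rw [← exp_add]
        refine exp_le_exp.2 ?_
        calc K * ‖x + t • v‖ ≤ |K| * (‖x‖ + ‖v‖) :=
              (mul_le_mul_of_nonneg_right (le_abs_self K) (norm_nonneg _)).trans
                (mul_le_mul_of_nonneg_left hn (abs_nonneg K))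
          _ = _ := by ring
      calc C * exp (K * ‖x + t • v‖) * ‖v‖ ≤ C * (exp (|K| * ‖v‖) * exp (|K| * ‖x‖)) * ‖v‖ := by
            gcongr
        _ = _ := by ring
    · have h2 : HasDerivAt (fun t : ℝ => x + t • v) v t := by
        simpa using ((hasDerivAt_id t).smul_const v).const_add x
      exact (hF.differentiable one_ne_zero _).hasFDerivAt.comp_hasDerivAt t h2
  -- differentiate the tilted integral
  have hR : HasDerivAt (fun t : ℝ => ∫ x, F x * exp (t * ⟪x, v⟫ - t ^ 2 * ‖v‖ ^ 2 / 2) ∂gam ι)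
      (∫ x, F x * ⟪x, v⟫ ∂gam ι) 0 := by
    have h := (hasDerivAt_integral_of_dominated_loc_of_deriv_le (μ := gam ι)
      (F := fun t x => F x * exp (t * ⟪x, v⟫ - t ^ 2 * ‖v‖ ^ 2 / 2))
      (F' := fun t x => F x * (exp (t * ⟪x, v⟫ - t ^ 2 * ‖v‖ ^ 2 / 2) * (⟪x, v⟫ - t * ‖v‖ ^ 2)))
      (x₀ := (0:ℝ)) (s := Metric.ball 0 1)
      (bound := fun x => C * (1 + ‖v‖ ^ 2) * exp ((|K| + 2 * ‖v‖) * ‖x‖))
      (Metric.ball_mem_nhds _ one_pos)
      (Eventually.of_forall fun t => (hFc.mul (by fun_prop)).aestronglyMeasurable)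
      (by simpa using integrable_gam_of_le hFc (C := C) (K := K) (fun x => by simpa using h0 x))
      (hFc.mul (by fun_prop)).aestronglyMeasurable
      (ae_of_all _ fun x t ht => ?_)
      ((integrable_exp_norm_gam _).const_mul _)
      (ae_of_all _ fun x t _ => ?_)).2
    · simpa using h
    · rw [Metric.mem_ball, dist_zero_right, norm_eq_abs] at ht
      have hi : |⟪x, v⟫| ≤ ‖x‖ * ‖v‖ := abs_real_inner_le_norm x v
      rw [norm_mul, norm_mul, norm_eq_abs, norm_eq_abs, norm_eq_abs, abs_exp]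
      have e1 : exp (t * ⟪x, v⟫ - t ^ 2 * ‖v‖ ^ 2 / 2) ≤ exp (‖v‖ * ‖x‖) := by
        refine exp_le_exp.2 ?_
        have : t * ⟪x, v⟫ ≤ ‖x‖ * ‖v‖ := (le_abs_self _).trans (by
          rw [abs_mul]; exact (mul_le_of_le_one_left (abs_nonneg _) ht.le).trans hi)
        nlinarith [mul_nonneg (sq_nonneg t) (sq_nonneg ‖v‖)]
      have e2 : |⟪x, v⟫ - t * ‖v‖ ^ 2| ≤ (1 + ‖v‖ ^ 2) * exp (‖v‖ * ‖x‖) := by
        have h3 : |t * ‖v‖ ^ 2| ≤ ‖v‖ ^ 2 := by
          rw [abs_mul, abs_of_nonneg (sq_nonneg ‖v‖)]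
          exact mul_le_of_le_one_left (sq_nonneg _) ht.le
        have h4 := add_one_le_exp (‖v‖ * ‖x‖)
        have h5 := one_le_exp (mul_nonneg (norm_nonneg v) (norm_nonneg x))
        nlinarith [abs_sub ⟪x, v⟫ (t * ‖v‖ ^ 2), mul_le_mul_of_nonneg_left h5 (sq_nonneg ‖v‖)]
      have e3 : C * exp (K * ‖x‖) ≤ C * exp (|K| * ‖x‖) := by
        gcongr; exact le_abs_self K
      calc |F x| * (exp (t * ⟪x, v⟫ - t ^ 2 * ‖v‖ ^ 2 / 2) * |⟪x, v⟫ - t * ‖v‖ ^ 2|)
          ≤ (C * exp (|K| * ‖x‖)) * (exp (‖v‖ * ‖x‖) * ((1 + ‖v‖ ^ 2) * exp (‖v‖ * ‖x‖))) :=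
            mul_le_mul ((h0 x).trans e3) (mul_le_mul e1 e2 (abs_nonneg _) (exp_pos _).le)
              (mul_nonneg (exp_pos _).le (abs_nonneg _)) (mul_nonneg hC (exp_pos _).le)
        _ = C * (1 + ‖v‖ ^ 2) * (exp (|K| * ‖x‖) * exp (‖v‖ * ‖x‖) * exp (‖v‖ * ‖x‖)) := by ring
        _ = _ := by rw [← exp_add, ← exp_add]; ring_nf
    · refine ((((hasDerivAt_id t).mul_const ⟪x, v⟫).sub
        ((((hasDerivAt_id t).pow 2).mul_const (‖v‖ ^ 2)).div_const 2)).exp.const_mul (F x)
        ).congr_deriv ?_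
      simp
      ring_nf
      simp
  have heq : (fun t : ℝ => ∫ x, F (x + t • v) ∂gam ι)
      = fun t : ℝ => ∫ x, F x * exp (t * ⟪x, v⟫ - t ^ 2 * ‖v‖ ^ 2 / 2) ∂gam ι := funext fun t => by
    rw [← integral_map (f := F) (by fun_prop : AEMeasurable (fun x => x + t • v) (gam ι))
      hFc.aestronglyMeasurable, gam_map_add, integral_tilted, (integral_exp_inner _).2]
    refine integral_congr_ae (ae_of_all _ fun x => ?_)
    simp only [smul_eq_mul, ← exp_sub, inner_smul_left, norm_smul, norm_eq_abs, mul_pow, sq_abs,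
      RCLike.conj_to_real]
    rw [real_inner_comm v x, mul_comm]
  rw [heq] at hL
  exact hL.unique hR

end Vale.Agent.P347.Quarter
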