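import Vale.Agent.P347.Quarter.Gauss.Density
import Vale.Agent.P347.Quarter.LogConcave

/-!
# P347: quadratic potentials and the scalar Gaussian Poincaré inequality
-/

open MeasureTheory ProbabilityTheory Real
open scoped RealInnerProductSpace

namespace Vale.Agent.P347.Quarter

variable {ι : Type} [Fintype ι] {d : ℕ}

/-- The potential `‖x‖² / 2` has Hessian one. -/
lemma hessGE_half_sq : HessGE (fun x : Sp d => 1 / 2 * ‖x‖ ^ 2) 1 := by
  intro x v
  have h1 : ∀ z : Sp d, fderiv ℝ (fun x : Sp d => 1 / 2 * ‖x‖ ^ 2) z = innerSL ℝ z := fun z => by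
    refine HasFDerivAt.fderiv ?_
    refine ((hasFDerivAt_id z).norm_sq.const_mul (1 / 2)).congr_fderiv ?_
    ext w
    simp
  have h2 : fderiv ℝ (fun z : Sp d => innerSL ℝ z) x = innerSL ℝ :=
    ((innerSL ℝ (E := Sp d)).hasFDerivAt).fderiv
  rw [iteratedFDeriv_two_apply, funext h1, h2, one_mul]
  simp only [Matrix.cons_val_zero, Matrix.cons_val_one]
  exact (real_inner_self_eq_norm_sq v).ge

lemma contDiff_half_sq {n : WithTop ℕ∞} : ContDiff ℝ n fun x : Sp d => 1 / 2 * ‖x‖ ^ 2 :=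
  contDiff_const.mul (contDiff_norm_sq ℝ)

/-- The scalar Gaussian Poincaré inequality in dimension `d`. -/
lemma poincare_gd {g : Sp d → ℝ} (hg : ContDiff ℝ 1 g)
    (hg2 : Integrable (fun x => g x ^ 2) (gd d))
    (hDg : Integrable (fun x => ‖fderiv ℝ g x‖ ^ 2) (gd d)) :
    ∫ x, g x ^ 2 ∂gd d - (∫ x, g x ∂gd d) ^ 2 ≤ ∫ x, ‖fderiv ℝ g x‖ ^ 2 ∂gd d := by
  set c : ℝ := (√(2 * π))⁻¹ ^ d with hc
  have hc0 : 0 < c := by positivity
  have e : ∀ (f : Sp d → ℝ),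
      (fun x => gdensity x * f x) = fun x => c * (exp (-(1 / 2 * ‖x‖ ^ 2)) * f x) := fun f =>
    funext fun x => by simp [gdensity, hc, mul_assoc]
  have hint : ∀ f : Sp d → ℝ, Integrable f (gd d) →
      Integrable fun x => exp (-(1 / 2 * ‖x‖ ^ 2)) * f x := fun f hf => by
    have := (integrable_gam_iff.1 hf)
    rw [e] at this
    simpa [inv_mul_cancel_left₀ hc0.ne'] using this.const_mul c⁻¹
  have h := hessGE_half_sq.poincare (contDiff_half_sq (d := d)) one_pos hg (hint _ hg2) (hint _ hDg)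
  have hI : ∀ f : Sp d → ℝ, ∫ x, f x ∂gd d = c * ∫ x, exp (-(1 / 2 * ‖x‖ ^ 2)) * f x := fun f => by
    rw [integral_gam, e, integral_const_mul]
  have hone : c * ∫ x : Sp d, exp (-(1 / 2 * ‖x‖ ^ 2)) = 1 := by
    simpa using (hI fun _ => (1:ℝ)).symm
  simp only [hI]
  rw [div_one] at h
  set Z := ∫ x : Sp d, exp (-(1 / 2 * ‖x‖ ^ 2))
  set A := ∫ x : Sp d, exp (-(1 / 2 * ‖x‖ ^ 2)) * g x ^ 2
  set B := ∫ x : Sp d, exp (-(1 / 2 * ‖x‖ ^ 2)) * g x
  set C := ∫ x : Sp d, exp (-(1 / 2 * ‖x‖ ^ 2)) * ‖fderiv ℝ g x‖ ^ 2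
  calc c * A - (c * B) ^ 2 = c ^ 2 * (Z * A - B ^ 2) := by linear_combination -c * A * hone
    _ ≤ c ^ 2 * (Z * C) := mul_le_mul_of_nonneg_left h (sq_nonneg c)
    _ = c * C := by linear_combination c * C * hone

/-- The scalar Gaussian Poincaré inequality on any finite index type. -/
lemma poincare_gam {g : Eu ι → ℝ} (hg : ContDiff ℝ 1 g)
    (hg2 : Integrable (fun x => g x ^ 2) (gam ι))
    (hDg : Integrable (fun x => ‖fderiv ℝ g x‖ ^ 2) (gam ι)) :
    ∫ x, g x ^ 2 ∂gam ι - (∫ x, g x ∂gam ι) ^ 2 ≤ ∫ x, ‖fderiv ℝ g x‖ ^ 2 ∂gam ι := by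
  let e : Sp (Fintype.card ι) ≃ₗᵢ[ℝ] Eu ι :=
    LinearIsometryEquiv.piLpCongrLeft 2 ℝ ℝ (Fintype.equivFin ι).symm
  have hmap : (gd (Fintype.card ι)).map e = gam ι := stdGaussian_map e
  have hemb : MeasurableEmbedding e := e.toHomeomorph.measurableEmbedding
  have hD : ∀ x, ‖fderiv ℝ (g ∘ e) x‖ = ‖fderiv ℝ g (e x)‖ := fun x => by
    have : fderiv ℝ (g ∘ e) x
        = (fderiv ℝ g (e x)).comp (e.toContinuousLinearEquiv : _ →L[ℝ] Eu ι) :=
      ((hg.differentiable one_ne_zero _).hasFDerivAt.comp x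
        e.toContinuousLinearEquiv.hasFDerivAt).fderiv
    rw [this]
    exact ContinuousLinearMap.opNorm_comp_linearIsometryEquiv _ e
  rw [← hmap] at hg2 hDg ⊢
  simp only [hemb.integral_map]
  rw [hemb.integrable_map_iff] at hg2 hDg
  have h := poincare_gd (g := g ∘ e)
    (hg.comp (e.toContinuousLinearEquiv : Sp (Fintype.card ι) ≃L[ℝ] Eu ι).contDiff) hg2
    (by simp only [hD]; exact hDg)
  simpa only [hD, Function.comp_apply] using h

end Vale.Agent.P347.Quarter
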