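import Vale.Agent.P347.Quarter.Defs
import Vale.Agent.P347.Quarter.Rotation
import Vale.Agent.P347.Gauss
import Vale.Agent.P347.Measures

/-!
# P347: the standard Gaussian law as a density, and translations of it
-/

open MeasureTheory ProbabilityTheory Real
open scoped RealInnerProductSpace ENNReal

namespace Vale.Agent.P347.Quarter

variable {ι : Type} [Fintype ι]

/-- The standard Gaussian density. -/
noncomputable def gdensity (x : Eu ι) : ℝ :=
  (√(2 * π))⁻¹ ^ Fintype.card ι * exp (-(1 / 2) * ‖x‖ ^ 2)

lemma gdensity_pos (x : Eu ι) : 0 < gdensity x := by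
  unfold gdensity; positivity

lemma continuous_gdensity : Continuous (gdensity (ι := ι)) := by
  unfold gdensity; fun_prop

/-- The standard Gaussian law has the Gaussian density. -/
theorem gam_eq_withDensity :
    gam ι = volume.withDensity fun x : Eu ι => ENNReal.ofReal (gdensity x) := by
  have hpi : (Measure.pi fun _ : ι => gaussianReal 0 1)
      = volume.withDensity fun z : ι → ℝ =>
          ENNReal.ofReal (gdensity (WithLp.toLp 2 z : Eu ι)) := by
    rw [gaussianReal_of_var_ne_zero 0 one_ne_zero]
    refine (pi_withDensity_ofReal (μ := fun _ : ι => (volume : Measure ℝ))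
      (fun _ => gaussianPDFReal 0 1) (fun _ x => gaussianPDFReal_nonneg _ _ x)
      (fun _ => integrable_gaussianPDFReal 0 1)).trans ?_
    rw [← volume_pi]
    congr 1
    funext z
    congr 1
    rw [gdensity, EuclideanSpace.norm_sq_eq, Finset.mul_sum, exp_sum, ← Finset.card_univ,
      ← Finset.prod_const, ← Finset.prod_mul_distrib]
    refine Finset.prod_congr rfl fun i _ => ?_
    simp [gaussianPDFReal, sub_zero]
    left
    ring
  refine Measure.ext_of_lintegral _ fun f hf => ?_
  have hm : Measurable fun x : Eu ι => ENNReal.ofReal (gdensity x) :=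
    continuous_gdensity.measurable.ennreal_ofReal
  rw [gam, ← map_pi_eq_stdGaussian, hpi, lintegral_map hf (by fun_prop),
    lintegral_withDensity_eq_lintegral_mul _ hm hf,
    lintegral_withDensity_eq_lintegral_mul _
      (f := fun z : ι → ℝ => ENNReal.ofReal (gdensity (WithLp.toLp 2 z : Eu ι)))
      (hm.comp (by fun_prop))
      (g := fun z : ι → ℝ => f (WithLp.toLp 2 z)) (hf.comp (by fun_prop)),
    ← (PiLp.volume_preserving_toLp ι).lintegral_comp (hm.mul hf)]
  rfl

lemma integral_gam (f : Eu ι → ℝ) : ∫ x, f x ∂gam ι = ∫ x, gdensity x * f x := by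
  rw [gam_eq_withDensity, integral_withDensity_eq_integral_toReal_smul
    continuous_gdensity.measurable.ennreal_ofReal (ae_of_all _ fun x => ENNReal.ofReal_lt_top)]
  simp [ENNReal.toReal_ofReal (gdensity_pos _).le]

lemma integrable_gam_iff {f : Eu ι → ℝ} :
    Integrable f (gam ι) ↔ Integrable fun x => gdensity x * f x := by
  rw [gam_eq_withDensity, integrable_withDensity_iff_integrable_smul'
    continuous_gdensity.measurable.ennreal_ofReal (ae_of_all _ fun x => ENNReal.ofReal_lt_top)]
  simp [ENNReal.toReal_ofReal (gdensity_pos _).le]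

/-- The exponential of a linear form. -/
lemma integral_exp_inner (m : Eu ι) :
    Integrable (fun x => exp ⟪m, x⟫) (gam ι) ∧ ∫ x, exp ⟪m, x⟫ ∂gam ι = exp (‖m‖ ^ 2 / 2) := by
  have hc : Continuous fun x : Eu ι => exp ⟪m, x⟫ := by fun_prop
  have h := lintegral_exp_dual (innerSL ℝ m)
  simp only [innerSL_apply_apply, innerSL_apply_norm] at h
  change ∫⁻ y, ENNReal.ofReal (exp ⟪m, y⟫) ∂gam ι = _ at h
  have hi : Integrable (fun x => exp ⟪m, x⟫) (gam ι) := by
    refine ⟨hc.aestronglyMeasurable, ?_⟩
    rw [hasFiniteIntegral_iff_ofReal (ae_of_all _ fun x => (exp_pos _).le), h]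
    exact ENNReal.ofReal_lt_top
  refine ⟨hi, ?_⟩
  rw [integral_eq_lintegral_of_nonneg_ae (ae_of_all _ fun x => (exp_pos _).le)
    hc.aestronglyMeasurable, h, ENNReal.toReal_ofReal (exp_pos _).le]

/-- Translation, at the level of nonnegative integrals. -/
lemma lintegral_gam_translate (m : Eu ι) {f : Eu ι → ℝ≥0∞} (hf : Measurable f) :
    ∫⁻ x, f (x + m) ∂gam ι
      = ∫⁻ x, ENNReal.ofReal (exp (⟪m, x⟫ - ‖m‖ ^ 2 / 2)) * f x ∂gam ι := by
  have hm : Measurable fun x : Eu ι => ENNReal.ofReal (gdensity x) :=
    continuous_gdensity.measurable.ennreal_ofReal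
  rw [gam_eq_withDensity, lintegral_withDensity_eq_lintegral_mul _ hm
      (g := fun x => f (x + m)) (hf.comp (by fun_prop)),
    lintegral_withDensity_eq_lintegral_mul _ hm (by fun_prop),
    ← lintegral_sub_right_eq_self _ m]
  refine lintegral_congr fun x => ?_
  simp only [Pi.mul_apply, sub_add_cancel, ← mul_assoc,
    ← ENNReal.ofReal_mul (gdensity_pos x).le]
  congr 2
  simp only [gdensity, mul_assoc, ← exp_add]
  congr 2
  rw [norm_sub_sq_real, real_inner_comm]
  ring

/-- Translation. -/
theorem gam_map_add (m : Eu ι) :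
    (gam ι).map (fun x => x + m) = (gam ι).tilted fun x => ⟪m, x⟫ := by
  obtain ⟨-, hZ⟩ := integral_exp_inner m
  refine Measure.ext_of_lintegral _ fun f hf => ?_
  rw [lintegral_map hf (by fun_prop), lintegral_gam_translate m hf, lintegral_tilted, hZ]
  refine lintegral_congr fun x => ?_
  rw [← exp_sub]

end Vale.Agent.P347.Quarter
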